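import Claimed.Agent.R286.Defs.Gh
import Claimed.Agent.R286.Tst.Step

/-!
# Row 286: regularity and first/second derivatives of the continuations of `Defs/Gh.lean`      (helper131; 0 sorry)

PE Lemma 2.1 (`lem:found-source`) + the implicit analytic facts (S0, S1 of P01), for ANY real masses unless said otherwise; `hB : B.Ok`.

* complements to `Tst/Step`: `tstE_clm, tstE_apply, tstE_const, tstE_add, tstE_sub, tstE_smul, tstE_nonneg, tstE_mono, tstE_var`
* `ghq_noise l : TstNoise (ghStd ι) l.inc` (Gaussian noise of a level: all exponential moments), `ghq_exp_l1`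
* terminal: `ghGav B p` vector valued Gibbs average, `ghGav_bRegN`, `ghGav_hasFDerivAt`, `ghF0_regF`, `ghGw_nonneg`, `ghGw_sum`
* bridges: `ghF_cons : ghF B (l :: ls) = tstT ..`,  `ghE_cons : ghE B (l :: ls) Φ = tstE .. (ghE B ls Φ)`,  `ghC_cons`, `ghH_cons`
* **`ghF_regF`** (`RegF`: smooth, all derivatives of order `≥ 1` bounded), `ghF_contDiff`, **`ghE_bRegN`**, `ghH_bRegN`, `ghC_bRegN`, `ghE_contDiff`
* **`ghF_fderiv : fderiv ℝ (ghF B ls) z v = ghE B ls v z`**,  **`ghE_fderiv : fderiv ℝ (ghE B ls v) z w = ghH B ls v w z`**;  along lines: `ghF_hasDerivAt`, `ghE_hasDerivAt`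
* `ghE_const, ghE_add, ghE_sub, ghE_smul, ghE_nonneg, ghE_mono, ghE_abs_le`;  `ghD_integral` (`∫ ghD = 1`), `ghD_pos`
* `ghF_fderiv_norm_le` (`≤ 1`), `ghF_lip` (1-Lipschitz in sup norm), `ghF_add_const`, `ghF_convexOn` (masses `≥ 0`)
* `ghC_self_nonneg`, `ghH_self_nonneg`, **`ghH_sandwich : u C ≤ H ≤ a C`**
-/

set_option autoImplicit false
set_option linter.unusedSectionVars false

namespace Claimed.Agent.R286

open MeasureTheory ProbabilityTheory Filter Topology

noncomputable section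

variable {S ι : Type} [Fintype S] [Fintype ι]

/-! ### complements to `Tst/Step.lean` -/

section compl

universe u v w
variable {E : Type u} [NormedAddCommGroup E] [NormedSpace ℝ E]
variable {G : Type v} [NormedAddCommGroup G] [NormedSpace ℝ G]
variable {G' : Type w} [NormedAddCommGroup G'] [NormedSpace ℝ G']
variable {Ω : Type*} [MeasurableSpace Ω]
variable {μ : Measure Ω} {A : Ω → E} {m : ℝ} {F : E → ℝ}

theorem tstE_clm [CompleteSpace G] [CompleteSpace G'] (hN : TstNoise μ A) (hF : RegF F) (L : G →L[ℝ] G')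
    {g : E → G} (hg : BRegN 0 g) (x : E) :
    L (tstE μ A m F g x) = tstE μ A m F (fun y => L (g y)) x := by
  simp only [tstE, tstN, tstP, map_smul]
  congr 1
  rw [← L.integral_comp_comm (tstN_integrable hN hF m hg x)]
  simp only [map_smul]

theorem tstE_apply {G₁ : Type*} [NormedAddCommGroup G₁] [NormedSpace ℝ G₁] [CompleteSpace G]
    (hN : TstNoise μ A) (hF : RegF F) {g : E → (G₁ →L[ℝ] G)} (hg : BRegN 0 g) (x : E) (v : G₁) :
    tstE μ A m F g x v = tstE μ A m F (fun y => g y v) x :=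
  tstE_clm hN hF (ContinuousLinearMap.apply ℝ G v) hg x

theorem tstE_const [NeZero μ] [CompleteSpace G] (hN : TstNoise μ A) (hF : RegF F) (c : G) (x : E) :
    tstE μ A m F (fun _ => c) x = c := by
  have hZ := tstZ_pos hN hF m x
  simp only [tstE, tstN, tstP]
  rw [integral_smul_const, smul_smul]
  have : (tstZ μ A m F x)⁻¹ * ∫ ω, Real.exp (m * F (x + A ω)) ∂μ = 1 := inv_mul_cancel₀ hZ.ne'
  rw [this, one_smul]

theorem tstE_add (hN : TstNoise μ A) (hF : RegF F) {g₁ g₂ : E → G} (h₁ : BRegN 0 g₁) (h₂ : BRegN 0 g₂)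
    (x : E) : tstE μ A m F (fun y => g₁ y + g₂ y) x = tstE μ A m F g₁ x + tstE μ A m F g₂ x := by
  simp only [tstE]; rw [tstN_add hN hF h₁ h₂, smul_add]

theorem tstE_smul (c : ℝ) (g : E → G) (x : E) :
    tstE μ A m F (fun y => c • g y) x = c • tstE μ A m F g x := by
  simp only [tstE]; rw [tstN_smul, smul_comm]

theorem tstE_sub (hN : TstNoise μ A) (hF : RegF F) {g₁ g₂ : E → G} (h₁ : BRegN 0 g₁) (h₂ : BRegN 0 g₂)
    (x : E) : tstE μ A m F (fun y => g₁ y - g₂ y) x = tstE μ A m F g₁ x - tstE μ A m F g₂ x := by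
  have h := tstE_add (m := m) hN hF h₁ (h₂.const_smul (-1)) x
  rw [tstE_smul] at h
  simpa [sub_eq_add_neg] using h

theorem tstE_nonneg [NeZero μ] (hN : TstNoise μ A) (hF : RegF F) {g : E → ℝ} (hg : ∀ y, 0 ≤ g y) (x : E) :
    0 ≤ tstE μ A m F g x := by
  have hZ := tstZ_pos hN hF m x
  simp only [tstE, tstN, tstP, smul_eq_mul]
  exact mul_nonneg (inv_pos.2 hZ).le (integral_nonneg fun ω => mul_nonneg (Real.exp_pos _).le (hg _))

theorem tstE_mono [NeZero μ] (hN : TstNoise μ A) (hF : RegF F) {g₁ g₂ : E → ℝ} (h₁ : BRegN 0 g₁)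
    (h₂ : BRegN 0 g₂) (h : ∀ y, g₁ y ≤ g₂ y) (x : E) : tstE μ A m F g₁ x ≤ tstE μ A m F g₂ x := by
  have := tstE_nonneg (m := m) hN hF (g := fun y => g₂ y - g₁ y) (fun y => sub_nonneg.2 (h y)) x
  rw [tstE_sub hN hF h₂ h₁] at this
  linarith

/-- variance identity for the tilted step -/
theorem tstE_var [NeZero μ] (hN : TstNoise μ A) (hF : RegF F) {g₁ g₂ : E → ℝ} (h₁ : BRegN 0 g₁)
    (h₂ : BRegN 0 g₂) (x : E) :
    tstE μ A m F (fun y => (g₁ y - tstE μ A m F g₁ x) * (g₂ y - tstE μ A m F g₂ x)) x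
      = tstE μ A m F (fun y => g₁ y * g₂ y) x - tstE μ A m F g₁ x * tstE μ A m F g₂ x := by
  obtain ⟨a, ha⟩ : ∃ a, a = tstE μ A m F g₁ x := ⟨_, rfl⟩
  obtain ⟨b, hb⟩ : ∃ b, b = tstE μ A m F g₂ x := ⟨_, rfl⟩
  rw [← ha, ← hb]
  have e : (fun y => (g₁ y - a) * (g₂ y - b))
      = fun y => (g₁ y * g₂ y - (b • g₁ y + a • g₂ y)) + a * b := by
    funext y; simp only [smul_eq_mul]; ring
  rw [e, tstE_add hN hF ((h₁.mul h₂).sub ((h₁.const_smul b).add (h₂.const_smul a))) (bRegN_const 0 _),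
    tstE_sub hN hF (h₁.mul h₂) ((h₁.const_smul b).add (h₂.const_smul a)),
    tstE_add hN hF (h₁.const_smul b) (h₂.const_smul a), tstE_smul, tstE_smul, tstE_const hN hF,
    ← ha, ← hb]
  simp only [smul_eq_mul]; ring

end compl

/-! ### the Gaussian noise of a level -/

instance ghStd_prob : IsProbabilityMeasure (ghStd ι) := by unfold ghStd; infer_instance

theorem ghq_gauss_exp_abs (s : ℝ) :
    Integrable (fun x : ℝ => Real.exp (s * |x|)) (gaussianReal 0 1) := by
  refine ((integrable_exp_mul_gaussianReal (μ := 0) (v := 1) s).add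
    (integrable_exp_mul_gaussianReal (μ := 0) (v := 1) (-s))).mono' (by fun_prop)
    (Eventually.of_forall fun x => ?_)
  rw [Real.norm_eq_abs, abs_of_pos (Real.exp_pos _)]
  simp only [Pi.add_apply]
  rcases abs_cases x with ⟨h, _⟩ | ⟨h, _⟩
  · rw [h]; linarith [Real.exp_pos (-s * x)]
  · rw [h, mul_neg, ← neg_mul]; linarith [Real.exp_pos (s * x)]

theorem ghq_exp_l1 (s : ℝ) :
    Integrable (fun g : ι → ℝ => Real.exp (s * ∑ p, |g p|)) (ghStd ι) := by
  have h := Integrable.fintype_prod (ι := ι) (f := fun _ (x : ℝ) => Real.exp (s * |x|))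
    (μ := fun _ => gaussianReal 0 1) (fun _ => ghq_gauss_exp_abs s)
  refine h.congr (Eventually.of_forall fun g => ?_)
  simp only
  rw [← Real.exp_sum, Finset.mul_sum]

theorem GhLv.inc_continuous (l : GhLv S ι) : Continuous l.inc :=
  continuous_pi fun _ => continuous_finsetSum _ fun i _ => continuous_const.mul (continuous_apply i)

theorem GhLv.inc_norm_le (l : GhLv S ι) (ξ : ι → ℝ) :
    ‖l.inc ξ‖ ≤ (∑ s, ∑ i, |l.A s i|) * ∑ i, |ξ i| := by
  have h0 : 0 ≤ (∑ s, ∑ i, |l.A s i|) * ∑ i, |ξ i| :=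
    mul_nonneg (Finset.sum_nonneg fun s _ => Finset.sum_nonneg fun i _ => abs_nonneg _)
      (Finset.sum_nonneg fun i _ => abs_nonneg _)
  refine (pi_norm_le_iff_of_nonneg h0).2 fun s => ?_
  rw [Real.norm_eq_abs, GhLv.inc]
  calc |∑ i, l.A s i * ξ i| ≤ ∑ i, |l.A s i| * |ξ i| :=
        (Finset.abs_sum_le_sum_abs _ _).trans (le_of_eq (Finset.sum_congr rfl fun i _ => abs_mul _ _))
    _ ≤ ∑ i, (∑ s, ∑ i, |l.A s i|) * |ξ i| := by
        refine Finset.sum_le_sum fun i _ => mul_le_mul_of_nonneg_right ?_ (abs_nonneg _)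
        calc |l.A s i| ≤ ∑ i, |l.A s i| :=
              Finset.single_le_sum (f := fun i => |l.A s i|) (fun j _ => abs_nonneg _) (Finset.mem_univ i)
          _ ≤ ∑ s, ∑ i, |l.A s i| :=
              Finset.single_le_sum (f := fun s => ∑ i, |l.A s i|)
                (fun j _ => Finset.sum_nonneg fun i _ => abs_nonneg _) (Finset.mem_univ s)
    _ = _ := by rw [Finset.mul_sum]

theorem ghq_noise (l : GhLv S ι) : TstNoise (ghStd ι) l.inc := by
  refine ⟨l.inc_continuous.aestronglyMeasurable, fun c => ?_⟩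
  refine (ghq_exp_l1 (ι := ι) (|c| * ∑ s, ∑ i, |l.A s i|)).mono'
    ((Real.continuous_exp.comp (continuous_const.mul l.inc_continuous.norm)).aestronglyMeasurable)
    (Eventually.of_forall fun ξ => ?_)
  rw [Real.norm_eq_abs, abs_of_pos (Real.exp_pos _)]
  refine Real.exp_le_exp.2 ?_
  calc c * ‖l.inc ξ‖ ≤ |c| * ‖l.inc ξ‖ := mul_le_mul_of_nonneg_right (le_abs_self c) (norm_nonneg _)
    _ ≤ |c| * ((∑ s, ∑ i, |l.A s i|) * ∑ i, |ξ i|) :=
        mul_le_mul_of_nonneg_left (l.inc_norm_le ξ) (abs_nonneg c)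
    _ = _ := by ring

/-! ### the terminal Gibbs average (vector valued) -/

section gibbs

universe v
variable {G : Type v} [NormedAddCommGroup G] [NormedSpace ℝ G]

/-- terminal partition function -/
def ghZ0 (B : GhB S) (z : S → ℝ) : ℝ := ∑ s, B.w s * Real.exp (B.a * z s)

/-- unnormalised vector valued Gibbs sum -/
def ghN0 (B : GhB S) (p : S → G) (z : S → ℝ) : G := ∑ s, (B.w s * Real.exp (B.a * z s)) • p s

/-- vector valued Gibbs average -/
def ghGav (B : GhB S) (p : S → G) (z : S → ℝ) : G := ∑ s, ghGw B z s • p s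

theorem ghZ0_pos {B : GhB S} (hB : B.Ok) (z : S → ℝ) : 0 < ghZ0 B z := by
  have h1 : ∃ s, 0 < B.w s := by
    by_contra h
    have h2 : ∀ s, B.w s = 0 := fun s => le_antisymm (not_lt.1 fun hs => h ⟨s, hs⟩) (hB.nonneg s)
    have := hB.sum
    simp [h2] at this
  obtain ⟨s, hs⟩ := h1
  exact Finset.sum_pos' (fun t _ => mul_nonneg (hB.nonneg t) (Real.exp_pos _).le)
    ⟨s, Finset.mem_univ s, mul_pos hs (Real.exp_pos _)⟩

theorem ghGw_nonneg {B : GhB S} (hB : B.Ok) (z : S → ℝ) (s : S) : 0 ≤ ghGw B z s :=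
  div_nonneg (mul_nonneg (hB.nonneg s) (Real.exp_pos _).le) (ghZ0_pos hB z).le

theorem ghGw_sum {B : GhB S} (hB : B.Ok) (z : S → ℝ) : ∑ s, ghGw B z s = 1 := by
  simp only [ghGw]
  rw [← Finset.sum_div]
  exact div_self (ghZ0_pos hB z).ne'

theorem ghGav_eq (B : GhB S) (p : S → G) (z : S → ℝ) : ghGav B p z = (ghZ0 B z)⁻¹ • ghN0 B p z := by
  simp only [ghGav, ghN0, ghGw, ghZ0, Finset.smul_sum, smul_smul]
  refine Finset.sum_congr rfl fun s _ => ?_
  congr 1
  rw [div_eq_mul_inv, mul_comm]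

theorem ghGav_norm_le {B : GhB S} (hB : B.Ok) {p : S → G} {C : ℝ} (hC : ∀ s, ‖p s‖ ≤ C) (z : S → ℝ) :
    ‖ghGav B p z‖ ≤ C := by
  calc ‖ghGav B p z‖ ≤ ∑ s, ‖ghGw B z s • p s‖ := norm_sum_le _ _
    _ ≤ ∑ s, ghGw B z s * C := by
        refine Finset.sum_le_sum fun s _ => ?_
        rw [norm_smul, Real.norm_eq_abs, abs_of_nonneg (ghGw_nonneg hB z s)]
        exact mul_le_mul_of_nonneg_left (hC s) (ghGw_nonneg hB z s)
    _ = C := by rw [← Finset.sum_mul, ghGw_sum hB, one_mul]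

/-- coordinate functionals -/
def ghPr (S : Type) [Fintype S] (s : S) : (S → ℝ) →L[ℝ] ℝ := ContinuousLinearMap.proj s

theorem ghN0_hasFDerivAt (B : GhB S) (p : S → G) (z : S → ℝ) :
    HasFDerivAt (ghN0 B p) (B.a • ghN0 B (fun s => (ghPr S s).smulRight (p s)) z) z := by
  have h1 : ∀ s : S, HasFDerivAt (fun z : S → ℝ => (B.w s * Real.exp (B.a * z s)) • p s)
      ((B.w s * Real.exp (B.a * z s)) • (B.a • (ghPr S s).smulRight (p s))) z := by
    intro s
    have h2 : HasFDerivAt (fun z : S → ℝ => z s) (ghPr S s) z := (ghPr S s).hasFDerivAt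
    have h3 := ((h2.const_mul B.a).exp.const_mul (B.w s)).smul_const (p s)
    refine h3.congr_fderiv ?_
    ext v
    simp only [ContinuousLinearMap.smulRight_apply, smul_apply, smul_smul, smul_eq_mul]
    congr 1; ring
  have h4 := HasFDerivAt.fun_sum (u := Finset.univ) fun s _ => h1 s
  refine h4.congr_fderiv ?_
  simp only [ghN0, Finset.smul_sum]
  refine Finset.sum_congr rfl fun s _ => ?_
  rw [smul_comm]

theorem ghZ0_eq_N0 (B : GhB S) : ghZ0 B = ghN0 B (fun _ => (1 : ℝ)) := by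
  funext z; simp [ghZ0, ghN0]

theorem ghZ0_hasFDerivAt (B : GhB S) (z : S → ℝ) :
    HasFDerivAt (ghZ0 B) (B.a • ghN0 B (ghPr S) z) z := by
  have h := ghN0_hasFDerivAt B (fun _ => (1 : ℝ)) z
  rw [← ghZ0_eq_N0] at h
  refine h.congr_fderiv ?_
  congr 2
  funext s; ext v; simp

theorem ghGav_hasFDerivAt {B : GhB S} (hB : B.Ok) (p : S → G) (z : S → ℝ) :
    HasFDerivAt (ghGav B p) (B.a • (ghGav B (fun s => (ghPr S s).smulRight (p s)) z
      - (ghGav B (ghPr S) z).smulRight (ghGav B p z))) z := by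
  have hZ := ghZ0_pos hB z
  have h1 := ghN0_hasFDerivAt B p z
  have h2 := ghZ0_hasFDerivAt B z
  have h3 : HasFDerivAt (fun y => (ghZ0 B y)⁻¹) _ z := (hasDerivAt_inv hZ.ne').comp_hasFDerivAt z h2
  have h4 : HasFDerivAt (fun y => (ghZ0 B y)⁻¹ • ghN0 B p y) _ z := h3.smul h1
  have h5 : ghGav B p = fun y => (ghZ0 B y)⁻¹ • ghN0 B p y := by funext y; exact ghGav_eq B p y
  rw [h5]
  refine h4.congr_fderiv ?_
  simp only [ghGav_eq]
  ext v
  simp only [add_apply, smul_apply, ContinuousLinearMap.smulRight_apply, sub_apply, smul_sub,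
    smul_smul, smul_eq_mul]
  rw [sub_eq_add_neg]
  congr 1
  · rw [mul_comm]
  · rw [← neg_smul]
    congr 1
    field_simp

end gibbs

theorem ghGav_bRegN {B : GhB S} (hB : B.Ok) (k : ℕ) :
    ∀ {G : Type} [NormedAddCommGroup G] [NormedSpace ℝ G] (p : S → G), BRegN k (ghGav B p) := by
  induction k with
  | zero =>
    intro G _ _ p
    refine bRegN_zero_iff.2 ⟨?_, ∑ s, ‖p s‖, ghGav_norm_le hB fun s =>
      Finset.single_le_sum (f := fun s => ‖p s‖) (fun _ _ => norm_nonneg _) (Finset.mem_univ s)⟩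
    exact continuous_iff_continuousAt.2 fun z => (ghGav_hasFDerivAt hB p z).continuousAt
  | succ k ih =>
    intro G _ _ p
    refine bRegN_succ_iff.2 ⟨⟨∑ s, ‖p s‖, ghGav_norm_le hB fun s =>
      Finset.single_le_sum (f := fun s => ‖p s‖) (fun _ _ => norm_nonneg _) (Finset.mem_univ s)⟩,
      fun z => (ghGav_hasFDerivAt hB p z).differentiableAt, ?_⟩
    have he : fderiv ℝ (ghGav B p) = fun z => B.a • (ghGav B (fun s => (ghPr S s).smulRight (p s)) z
        - (ghGav B (ghPr S) z).smulRight (ghGav B p z)) := by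
      funext z; exact (ghGav_hasFDerivAt hB p z).fderiv
    rw [he]
    exact BRegN.const_smul _ ((ih _).sub ((ih _).smulRight (ih _)))

theorem ghF0_hasFDerivAt {B : GhB S} (hB : B.Ok) (z : S → ℝ) :
    HasFDerivAt (ghF0 B) (ghGav B (ghPr S) z) z := by
  have hZ := ghZ0_pos hB z
  have h2 := ((ghZ0_hasFDerivAt B z).log hZ.ne').const_mul B.a⁻¹
  have h3 : ghF0 B = fun y => B.a⁻¹ * Real.log (ghZ0 B y) := rfl
  rw [h3]
  refine h2.congr_fderiv ?_
  rw [ghGav_eq, smul_smul, smul_smul]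
  congr 1
  have := hB.pos.ne'
  field_simp

theorem ghF0_regF {B : GhB S} (hB : B.Ok) : RegF (ghF0 B) := by
  have he : fderiv ℝ (ghF0 B) = ghGav B (ghPr S) := by
    funext z; exact (ghF0_hasFDerivAt hB z).fderiv
  exact ⟨fun z => (ghF0_hasFDerivAt hB z).differentiableAt, fun k => by rw [he]; exact ghGav_bRegN hB k _⟩

/-! ### the recursion -/

variable {B : GhB S}

theorem ghF_cons (B : GhB S) (l : GhLv S ι) (ls : List (GhLv S ι)) :
    ghF B (l :: ls) = tstT (ghStd ι) l.inc l.m (ghF B ls) := by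
  funext z; simp only [ghF, ghT, tstT, tstP, tstZ]

/-- **S0**: every continuation is smooth with bounded derivatives of all orders `≥ 1` (any real masses) -/
theorem ghF_regF (hB : B.Ok) (ls : List (GhLv S ι)) : RegF (ghF B ls) := by
  induction ls with
  | nil => exact ghF0_regF hB
  | cons l ls ih => rw [ghF_cons]; exact tstT_regF (ghq_noise l) ih l.m

theorem ghE_nil (B : GhB S) (Φ : S → ℝ) : ghE (ι := ι) B [] Φ = ghGav B Φ := by
  funext z; simp [ghE, ghGav]

theorem ghE_cons (hB : B.Ok) (l : GhLv S ι) (ls : List (GhLv S ι)) (Φ : S → ℝ) :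
    ghE B (l :: ls) Φ = tstE (ghStd ι) l.inc l.m (ghF B ls) (ghE B ls Φ) := by
  funext z
  rw [tstE_eq_density (ghq_noise l) (ghF_regF hB ls), ← ghF_cons]
  simp [ghE, ghD]

theorem ghE_bRegN (hB : B.Ok) (ls : List (GhLv S ι)) (Φ : S → ℝ) (k : ℕ) : BRegN k (ghE B ls Φ) := by
  induction ls with
  | nil => rw [ghE_nil]; exact ghGav_bRegN hB k Φ
  | cons l ls ih => rw [ghE_cons hB]; exact tstE_bRegN (ghq_noise l) (ghF_regF hB ls) l.m k ih

/-- **gradient of the continuation = planted conditional mean** -/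
theorem ghF_fderiv (hB : B.Ok) (ls : List (GhLv S ι)) (z v : S → ℝ) :
    fderiv ℝ (ghF B ls) z v = ghE B ls v z := by
  induction ls generalizing z with
  | nil =>
    have : ghF (ι := ι) B [] = ghF0 B := by funext y; simp [ghF]
    rw [this, (ghF0_hasFDerivAt hB z).fderiv, ghE_nil]
    simp [ghGav, ghPr]
  | cons l ls ih =>
    rw [ghF_cons, tstT_fderiv (ghq_noise l) (ghF_regF hB ls),
      tstE_apply (ghq_noise l) (ghF_regF hB ls) ((ghF_regF hB ls).2 0), ghE_cons hB]
    congr 1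
    funext y; exact ih y

theorem ghF_hasFDerivAt (hB : B.Ok) (ls : List (GhLv S ι)) (z : S → ℝ) :
    HasFDerivAt (ghF B ls) (fderiv ℝ (ghF B ls) z) z := ((ghF_regF hB ls).1 z).hasFDerivAt

/-- **Hessian of the continuation**: derivative of the conditional mean = `ghH` -/
theorem ghE_fderiv (hB : B.Ok) (ls : List (GhLv S ι)) (v w z : S → ℝ) :
    fderiv ℝ (ghE B ls v) z w = ghH B ls v w z := by
  induction ls generalizing z with
  | nil =>
    rw [ghE_nil, (ghGav_hasFDerivAt hB v z).fderiv]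
    simp only [ghH, ghC, ghE_nil, smul_apply, sub_apply, ContinuousLinearMap.smulRight_apply, smul_eq_mul]
    congr 1
    simp only [ghGav, ghPr, sum_apply, smul_apply, ContinuousLinearMap.smulRight_apply,
      ContinuousLinearMap.proj_apply, smul_eq_mul]
    congr 1
    · exact Finset.sum_congr rfl fun s _ => by ring
    · ring
  | cons l ls ih =>
    have hN := ghq_noise l
    have hF := ghF_regF hB ls
    have hv := ghE_bRegN hB ls v
    have hw := ghE_bRegN hB ls w
    have hH : BRegN 0 (fun y => ghH B ls v w y) := by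
      have := ((bRegN_succ_iff.1 (hv 1)).2.2).apply w
      simpa only [ih] using this
    rw [ghE_cons hB, (tstE_hasFDerivAt hN hF l.m (hv 1) z).fderiv]
    simp only [add_apply, smul_apply, sub_apply, ContinuousLinearMap.smulRight_apply, smul_eq_mul]
    rw [tstE_apply hN hF (hv 1).fderiv_zero, tstE_apply hN hF ((hF.2 0).smulRight (hv 0)),
      tstE_apply hN hF (hF.2 0)]
    simp only [ContinuousLinearMap.smulRight_apply, smul_eq_mul, ih, ghF_fderiv hB]
    have e1 : ghH B (l :: ls) v w z = tstE (ghStd ι) l.inc l.m (ghF B ls) (fun y => ghH B ls v w y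
        + l.m • ((ghE B ls v y - tstE (ghStd ι) l.inc l.m (ghF B ls) (ghE B ls v) z)
          * (ghE B ls w y - tstE (ghStd ι) l.inc l.m (ghF B ls) (ghE B ls w) z))) z := by
      rw [tstE_eq_density hN hF, ← ghF_cons, ← ghE_cons hB, ← ghE_cons hB]
      simp [ghH, ghD]
    rw [e1, tstE_add hN hF hH ((((hv 0).sub (bRegN_const 0 _)).mul
      ((hw 0).sub (bRegN_const 0 _))).const_smul l.m), tstE_smul, tstE_var hN hF (hv 0) (hw 0)]
    simp only [smul_eq_mul]
    congr 3
    · congr 1; funext y; ring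
    · ring

theorem ghH_bRegN (hB : B.Ok) (ls : List (GhLv S ι)) (v w : S → ℝ) (k : ℕ) :
    BRegN k (fun z => ghH B ls v w z) := by
  have := ((bRegN_succ_iff.1 (ghE_bRegN hB ls v (k + 1))).2.2).apply w
  simpa only [ghE_fderiv hB] using this

theorem ghC_bRegN (hB : B.Ok) (ls : List (GhLv S ι)) (v w : S → ℝ) (k : ℕ) :
    BRegN k (fun z => ghC B ls v w z) :=
  (ghE_bRegN hB ls _ k).sub ((ghE_bRegN hB ls v k).mul (ghE_bRegN hB ls w k))

/-! ### elementary properties of the planted conditional expectation -/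

theorem ghE_const (hB : B.Ok) (ls : List (GhLv S ι)) (c : ℝ) (z : S → ℝ) :
    ghE B ls (fun _ => c) z = c := by
  induction ls generalizing z with
  | nil => simp [ghE, ← Finset.sum_mul, ghGw_sum hB]
  | cons l ls ih =>
    rw [ghE_cons hB]
    have : ghE B ls (fun _ => c) = fun _ => c := by funext y; exact ih y
    rw [this, tstE_const (ghq_noise l) (ghF_regF hB ls)]

theorem ghE_add (hB : B.Ok) (ls : List (GhLv S ι)) (Φ Ψ : S → ℝ) (z : S → ℝ) :
    ghE B ls (fun s => Φ s + Ψ s) z = ghE B ls Φ z + ghE B ls Ψ z := by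
  induction ls generalizing z with
  | nil => simp [ghE, mul_add, Finset.sum_add_distrib]
  | cons l ls ih =>
    rw [ghE_cons hB, ghE_cons hB, ghE_cons hB]
    have : ghE B ls (fun s => Φ s + Ψ s) = fun y => ghE B ls Φ y + ghE B ls Ψ y := by funext y; exact ih y
    rw [this, tstE_add (ghq_noise l) (ghF_regF hB ls) (ghE_bRegN hB ls Φ 0) (ghE_bRegN hB ls Ψ 0)]

theorem ghE_smul (hB : B.Ok) (ls : List (GhLv S ι)) (c : ℝ) (Φ : S → ℝ) (z : S → ℝ) :
    ghE B ls (fun s => c * Φ s) z = c * ghE B ls Φ z := by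
  induction ls generalizing z with
  | nil =>
    simp only [ghE, Finset.mul_sum]
    exact Finset.sum_congr rfl fun s _ => by ring
  | cons l ls ih =>
    rw [ghE_cons hB, ghE_cons hB]
    have : ghE B ls (fun s => c * Φ s) = fun y => c • ghE B ls Φ y := by funext y; exact ih y
    rw [this, tstE_smul, smul_eq_mul]

theorem ghE_sub (hB : B.Ok) (ls : List (GhLv S ι)) (Φ Ψ : S → ℝ) (z : S → ℝ) :
    ghE B ls (fun s => Φ s - Ψ s) z = ghE B ls Φ z - ghE B ls Ψ z := by
  have h := ghE_add hB ls Φ (fun s => (-1) * Ψ s) z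
  rw [ghE_smul hB] at h
  have e : (fun s => Φ s - Ψ s) = fun s => Φ s + -1 * Ψ s := by funext s; ring
  rw [e, h]; ring

theorem ghE_nonneg (hB : B.Ok) (ls : List (GhLv S ι)) {Φ : S → ℝ} (hΦ : ∀ s, 0 ≤ Φ s) (z : S → ℝ) :
    0 ≤ ghE B ls Φ z := by
  induction ls generalizing z with
  | nil => exact Finset.sum_nonneg fun s _ => mul_nonneg (ghGw_nonneg hB z s) (hΦ s)
  | cons l ls ih => rw [ghE_cons hB]; exact tstE_nonneg (ghq_noise l) (ghF_regF hB ls) ih z

theorem ghE_mono (hB : B.Ok) (ls : List (GhLv S ι)) {Φ Ψ : S → ℝ} (h : ∀ s, Φ s ≤ Ψ s) (z : S → ℝ) :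
    ghE B ls Φ z ≤ ghE B ls Ψ z := by
  have := ghE_nonneg hB ls (Φ := fun s => Ψ s - Φ s) (fun s => sub_nonneg.2 (h s)) z
  rw [ghE_sub hB] at this
  linarith

theorem ghE_abs_le (hB : B.Ok) (ls : List (GhLv S ι)) {Φ : S → ℝ} {C : ℝ} (h : ∀ s, |Φ s| ≤ C) (z : S → ℝ) :
    |ghE B ls Φ z| ≤ C := by
  rw [abs_le]
  constructor
  · have := ghE_mono hB ls (Φ := fun _ => -C) (Ψ := Φ) (fun s => (abs_le.1 (h s)).1) z
    rwa [ghE_const hB] at this
  · have := ghE_mono hB ls (Φ := Φ) (Ψ := fun _ => C) (fun s => (abs_le.1 (h s)).2) z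
    rwa [ghE_const hB] at this

/-- the planted transition density is normalised -/
theorem ghD_integral (hB : B.Ok) (l : GhLv S ι) (ls : List (GhLv S ι)) (z : S → ℝ) :
    ∫ ξ, ghD B l ls z ξ ∂ghStd ι = 1 := by
  have h := tstE_const (m := l.m) (ghq_noise l) (ghF_regF hB ls) (1 : ℝ) z
  rw [tstE_eq_density (ghq_noise l) (ghF_regF hB ls), ← ghF_cons] at h
  simpa [ghD] using h

theorem ghD_pos (B : GhB S) (l : GhLv S ι) (ls : List (GhLv S ι)) (z : S → ℝ) (ξ : ι → ℝ) :
    0 < ghD B l ls z ξ := Real.exp_pos _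

/-- the continuation is `1`-Lipschitz for the sup norm -/
theorem ghF_fderiv_norm_le (hB : B.Ok) (ls : List (GhLv S ι)) (z : S → ℝ) :
    ‖fderiv ℝ (ghF B ls) z‖ ≤ 1 := by
  refine ContinuousLinearMap.opNorm_le_bound _ zero_le_one fun v => ?_
  rw [ghF_fderiv hB, one_mul, Real.norm_eq_abs]
  exact ghE_abs_le hB ls (fun s => by simpa using norm_le_pi_norm v s) z

theorem ghF_lip (hB : B.Ok) (ls : List (GhLv S ι)) (z z' : S → ℝ) :
    |ghF B ls z - ghF B ls z'| ≤ ‖z - z'‖ := by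
  simpa using tst_growth (ghF_regF hB ls).1 (ghF_fderiv_norm_le hB ls) z' z

/-! ### the conditional covariance and the sandwich `u C ≤ H ≤ a C` -/

theorem ghC_cons (hB : B.Ok) (l : GhLv S ι) (ls : List (GhLv S ι)) (v w z : S → ℝ) :
    ghC B (l :: ls) v w z = tstE (ghStd ι) l.inc l.m (ghF B ls) (fun y => ghC B ls v w y) z
      + tstE (ghStd ι) l.inc l.m (ghF B ls) (fun y => (ghE B ls v y - ghE B (l :: ls) v z)
          * (ghE B ls w y - ghE B (l :: ls) w z)) z := by
  have hN := ghq_noise l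
  have hF := ghF_regF hB ls
  rw [ghE_cons hB l ls v, ghE_cons hB l ls w, tstE_var hN hF (ghE_bRegN hB ls v 0) (ghE_bRegN hB ls w 0)]
  simp only [ghC]
  rw [tstE_sub hN hF (ghE_bRegN hB ls _ 0) ((ghE_bRegN hB ls v 0).mul (ghE_bRegN hB ls w 0)),
    ghE_cons hB, ghE_cons hB, ghE_cons hB]
  ring

theorem ghH_cons (hB : B.Ok) (l : GhLv S ι) (ls : List (GhLv S ι)) (v w z : S → ℝ) :
    ghH B (l :: ls) v w z = tstE (ghStd ι) l.inc l.m (ghF B ls) (fun y => ghH B ls v w y) z
      + l.m * tstE (ghStd ι) l.inc l.m (ghF B ls) (fun y => (ghE B ls v y - ghE B (l :: ls) v z)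
          * (ghE B ls w y - ghE B (l :: ls) w z)) z := by
  have hN := ghq_noise l
  have hF := ghF_regF hB ls
  have e1 : ghH B (l :: ls) v w z = tstE (ghStd ι) l.inc l.m (ghF B ls) (fun y => ghH B ls v w y
      + l.m • ((ghE B ls v y - ghE B (l :: ls) v z) * (ghE B ls w y - ghE B (l :: ls) w z))) z := by
    rw [tstE_eq_density hN hF, ← ghF_cons]
    simp [ghH, ghD]
  rw [e1, tstE_add hN hF (ghH_bRegN hB ls v w 0) ((((ghE_bRegN hB ls v 0).sub (bRegN_const 0 _)).mul
      ((ghE_bRegN hB ls w 0).sub (bRegN_const 0 _))).const_smul l.m), tstE_smul, smul_eq_mul]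

theorem ghC_self_nonneg (hB : B.Ok) (ls : List (GhLv S ι)) (v z : S → ℝ) : 0 ≤ ghC B ls v v z := by
  have h := ghE_nonneg hB ls (Φ := fun s => (v s - ghE B ls v z) ^ 2) (fun s => sq_nonneg _) z
  obtain ⟨c, hc⟩ : ∃ c, c = ghE B ls v z := ⟨_, rfl⟩
  rw [← hc] at h
  have e : (fun s => (v s - c) ^ 2) = fun s => (v s * v s - (2 * c) * v s) + c ^ 2 := by
    funext s; ring
  rw [e, ghE_add hB, ghE_sub hB, ghE_smul hB, ghE_const hB, ← hc] at h
  simp only [ghC, ← hc]
  nlinarith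

/-- **`u C ≤ H ≤ a C`** (PE Lemma 2.1, LL (A1)) -/
theorem ghH_sandwich (hB : B.Ok) {u : ℝ} (hua : u ≤ B.a) (ls : List (GhLv S ι))
    (hm : ∀ l ∈ ls, u ≤ l.m ∧ l.m ≤ B.a) (v z : S → ℝ) :
    u * ghC B ls v v z ≤ ghH B ls v v z ∧ ghH B ls v v z ≤ B.a * ghC B ls v v z := by
  induction ls generalizing z with
  | nil =>
    have h0 := ghC_self_nonneg (ι := ι) hB [] v z
    simp only [ghH]
    exact ⟨mul_le_mul_of_nonneg_right hua h0, le_rfl⟩
  | cons l ls ih =>
    have hN := ghq_noise l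
    have hF := ghF_regF hB ls
    have ih' := ih fun l' hl' => hm l' (List.mem_cons_of_mem _ hl')
    obtain ⟨hl1, hl2⟩ := hm l List.mem_cons_self
    rw [ghC_cons hB, ghH_cons hB]
    have hV : 0 ≤ tstE (ghStd ι) l.inc l.m (ghF B ls) (fun y => (ghE B ls v y - ghE B (l :: ls) v z)
          * (ghE B ls v y - ghE B (l :: ls) v z)) z :=
      tstE_nonneg hN hF (fun y => mul_self_nonneg _) z
    have h1 := tstE_mono (m := l.m) hN hF ((ghC_bRegN hB ls v v 0).const_smul u) (ghH_bRegN hB ls v v 0)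
      (fun y => (ih' y).1) z
    have h2 := tstE_mono (m := l.m) hN hF (ghH_bRegN hB ls v v 0) ((ghC_bRegN hB ls v v 0).const_smul B.a)
      (fun y => (ih' y).2) z
    rw [tstE_smul, smul_eq_mul] at h1 h2
    constructor
    · nlinarith [mul_le_mul_of_nonneg_right hl1 hV]
    · nlinarith [mul_le_mul_of_nonneg_right hl2 hV]

/-! ### derivatives along lines, convexity, shift -/

theorem RegF.contDiff {E : Type*} [NormedAddCommGroup E] [NormedSpace ℝ E] {F : E → ℝ} (h : RegF F) :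
    ContDiff ℝ (⊤ : ℕ∞) F := by
  refine contDiff_infty.2 fun n => ?_
  have h1 : ContDiff ℝ ((n : WithTop ℕ∞) + 1) F :=
    contDiff_succ_iff_fderiv.2 ⟨h.1, fun h => absurd h (by simp), (h.2 n).1⟩
  exact h1.of_le (by exact_mod_cast Nat.le_succ n)

theorem ghF_contDiff (hB : B.Ok) (ls : List (GhLv S ι)) : ContDiff ℝ (⊤ : ℕ∞) (ghF B ls) :=
  (ghF_regF hB ls).contDiff

theorem ghE_contDiff (hB : B.Ok) (ls : List (GhLv S ι)) (Φ : S → ℝ) : ContDiff ℝ (⊤ : ℕ∞) (ghE B ls Φ) :=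
  contDiff_infty.2 fun n => (ghE_bRegN hB ls Φ n).1

theorem ghq_line (z v : S → ℝ) (t : ℝ) : HasDerivAt (fun t : ℝ => z + t • v) v t := by
  simpa using ((hasDerivAt_id t).smul_const v).const_add z

theorem ghF_hasDerivAt (hB : B.Ok) (ls : List (GhLv S ι)) (z v : S → ℝ) (t : ℝ) :
    HasDerivAt (fun t : ℝ => ghF B ls (z + t • v)) (ghE B ls v (z + t • v)) t := by
  have h := (ghF_hasFDerivAt hB ls (z + t • v)).comp_hasDerivAt t (ghq_line z v t)
  rwa [ghF_fderiv hB] at h

theorem ghE_hasDerivAt (hB : B.Ok) (ls : List (GhLv S ι)) (Φ z v : S → ℝ) (t : ℝ) :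
    HasDerivAt (fun t : ℝ => ghE B ls Φ (z + t • v)) (ghH B ls Φ v (z + t • v)) t := by
  have h0 : HasFDerivAt (ghE B ls Φ) (fderiv ℝ (ghE B ls Φ) (z + t • v)) (z + t • v) :=
    ((bRegN_succ_iff.1 (ghE_bRegN hB ls Φ 1)).2.1 _).hasFDerivAt
  have h := h0.comp_hasDerivAt t (ghq_line z v t)
  rwa [ghE_fderiv hB] at h

theorem ghH_self_nonneg (hB : B.Ok) (ls : List (GhLv S ι)) (hm : ∀ l ∈ ls, 0 ≤ l.m) (v z : S → ℝ) :
    0 ≤ ghH B ls v v z := by
  induction ls generalizing z with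
  | nil => exact mul_nonneg hB.pos.le (ghC_self_nonneg (ι := ι) hB [] v z)
  | cons l ls ih =>
    rw [ghH_cons hB]
    exact add_nonneg (tstE_nonneg (ghq_noise l) (ghF_regF hB ls)
        (ih fun l' hl' => hm l' (List.mem_cons_of_mem _ hl')) z)
      (mul_nonneg (hm l List.mem_cons_self)
        (tstE_nonneg (ghq_noise l) (ghF_regF hB ls) (fun y => mul_self_nonneg _) z))

/-- the continuations are convex (masses `≥ 0`) -/
theorem ghF_convexOn (hB : B.Ok) (ls : List (GhLv S ι)) (hm : ∀ l ∈ ls, 0 ≤ l.m) :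
    ConvexOn ℝ Set.univ (ghF B ls) := by
  refine ⟨convex_univ, fun x _ y _ a b ha hb hab => ?_⟩
  have hf' := ghF_hasDerivAt hB ls x (y - x)
  have hf'' := ghE_hasDerivAt hB ls (y - x) x (y - x)
  have hd : deriv (fun t : ℝ => ghF B ls (x + t • (y - x))) = fun t => ghE B ls (y - x) (x + t • (y - x)) := by
    funext t; exact (hf' t).deriv
  have hmono : Monotone (deriv (fun t : ℝ => ghF B ls (x + t • (y - x)))) := by
    rw [hd]
    refine monotone_of_deriv_nonneg (fun t => (hf'' t).differentiableAt) fun t => ?_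
    rw [(hf'' t).deriv]
    exact ghH_self_nonneg hB ls hm _ _
  have hconv := hmono.convexOn_univ_of_deriv fun t => (hf' t).differentiableAt
  have h := hconv.2 (Set.mem_univ 0) (Set.mem_univ 1) ha hb hab
  simp only [smul_eq_mul, mul_zero, mul_one, zero_add, zero_smul, add_zero, one_smul] at h
  have e1 : x + b • (y - x) = a • x + b • y := by
    have : a = 1 - b := by linarith
    rw [this, smul_sub, sub_smul, one_smul]; abel
  have e2 : x + (y - x) = y := by abel
  rw [e1, e2] at h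
  exact h

theorem ghF_add_const (hB : B.Ok) (ls : List (GhLv S ι)) (z : S → ℝ) (c : ℝ) :
    ghF B ls (z + fun _ => c) = ghF B ls z + c := by
  have h : ∀ t : ℝ, HasDerivAt (fun t : ℝ => ghF B ls (z + t • fun _ => (1 : ℝ)) - t) 0 t := by
    intro t
    have h1 := (ghF_hasDerivAt hB ls z (fun _ => (1 : ℝ)) t).sub (hasDerivAt_id t)
    rw [ghE_const hB, sub_self] at h1
    exact h1
  have h2 := is_const_of_deriv_eq_zero (fun t => (h t).differentiableAt) (fun t => (h t).deriv) c 0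
  simp only [zero_smul, add_zero, sub_zero] at h2
  have e : (c • fun _ : S => (1 : ℝ)) = fun _ => c := by funext s; simp
  rw [e] at h2
  linarith

end

end Claimed.Agent.R286
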